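import Vale.Agent.P062.Chk00
import Vale.Agent.P062.Chk01
import Vale.Agent.P062.Chk02
import Vale.Agent.P062.Chk03
import Vale.Agent.P062.Chk04
import Vale.Agent.P062.Chk05
import Vale.Agent.P062.Chk06
import Vale.Agent.P062.Chk07
import Vale.Agent.P062.Chk08
import Vale.Agent.P062.Chk09

namespace Vale.Agent.P062

theorem top_ok : checkTree top top = true :=
  (checkTree_node (checkTree_node (checkTree_node (checkTree_node (checkTree_node (checkTree_node (checkTree_node ok0 (checkTree_node ok1 ok2)) (checkTree_node ok3 (checkTree_node ok4 ok5))) (checkTree_node (checkTree_node ok6 (checkTree_node ok7 ok8)) (checkTree_node ok9 (checkTree_node ok10 ok11)))) (checkTree_node (checkTree_node (checkTree_node ok12 (checkTree_node ok13 ok14)) (checkTree_node ok15 (checkTree_node ok16 ok17))) (checkTree_node (checkTree_node ok18 (checkTree_node ok19 ok20)) (checkTree_node ok21 (checkTree_node ok22 ok23))))) (checkTree_node (checkTree_node (checkTree_node (checkTree_node ok24 (checkTree_node ok25 ok26)) (checkTree_node ok27 (checkTree_node ok28 ok29))) (checkTree_node (checkTree_node ok30 (checkTree_node ok31 ok32)) (checkTree_node ok33 (checkTree_node ok34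 ok35)))) (checkTree_node (checkTree_node (checkTree_node ok36 (checkTree_node ok37 ok38)) (checkTree_node ok39 (checkTree_node ok40 ok41))) (checkTree_node (checkTree_node ok42 (checkTree_node ok43 ok44)) (checkTree_node ok45 (checkTree_node ok46 ok47)))))) (checkTree_node (checkTree_node (checkTree_node (checkTree_node (checkTree_node ok48 (checkTree_node ok49 ok50)) (checkTree_node ok51 (checkTree_node ok52 ok53))) (checkTree_node (checkTree_node ok54 (checkTree_node ok55 ok56)) (checkTree_node ok57 (checkTree_node ok58 ok59)))) (checkTree_node (checkTree_node (checkTree_node ok60 (checkTree_node ok61 ok62)) (checkTree_node ok63 (checkTree_node ok64 ok65))) (checkTree_node (checkTree_node ok66 (checkTree_node ok67 ok68)) (checkTree_node ok69 (checkTree_node ok70 ok71))))) (checkTree_node (checkTree_node (checkTree_node (checkTree_node ok72 (checkTree_node ok73 ok74)) (checkTree_node ok75 (checkTree_node ok76 ok77))) (checkTree_node (checkTree_node ok78 (checkTree_node ok79 ok80)) (checkTree_node ok81 (checkTree_node ok82 ok83)))) (checkTree_node (checkTree_node (checkTree_node ok84 (checkTree_node ok85 ok86)) (checkTree_node ok87 (checkTree_node ok88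 ok89))) (checkTree_node (checkTree_node ok90 (checkTree_node ok91 ok92)) (checkTree_node ok93 (checkTree_node ok94 ok95))))))) (checkTree_node (checkTree_node (checkTree_node (checkTree_node (checkTree_node (checkTree_node ok96 (checkTree_node ok97 ok98)) (checkTree_node ok99 (checkTree_node ok100 ok101))) (checkTree_node (checkTree_node ok102 (checkTree_node ok103 ok104)) (checkTree_node ok105 (checkTree_node ok106 ok107)))) (checkTree_node (checkTree_node (checkTree_node ok108 (checkTree_node ok109 ok110)) (checkTree_node ok111 (checkTree_node ok112 ok113))) (checkTree_node (checkTree_node ok114 (checkTree_node ok115 ok116)) (checkTree_node ok117 (checkTree_node ok118 ok119))))) (checkTree_node (checkTree_node (checkTree_node (checkTree_node ok120 (checkTree_node ok121 ok122)) (checkTree_node ok123 (checkTree_node ok124 ok125))) (checkTree_node (checkTree_node ok126 (checkTree_node ok127 ok128)) (checkTree_node ok129 (checkTree_node ok130 ok131)))) (checkTree_node (checkTree_node (checkTree_node ok132 (checkTree_node ok133 ok134)) (checkTree_node ok135 (checkTree_node ok136 ok137))) (checkTree_node (checkTree_node ok138 (checkTree_node ok139 ok140))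 (checkTree_node ok141 (checkTree_node ok142 ok143)))))) (checkTree_node (checkTree_node (checkTree_node (checkTree_node (checkTree_node ok144 (checkTree_node ok145 ok146)) (checkTree_node ok147 (checkTree_node ok148 ok149))) (checkTree_node (checkTree_node ok150 (checkTree_node ok151 ok152)) (checkTree_node ok153 (checkTree_node ok154 ok155)))) (checkTree_node (checkTree_node (checkTree_node ok156 (checkTree_node ok157 ok158)) (checkTree_node ok159 (checkTree_node ok160 ok161))) (checkTree_node (checkTree_node ok162 (checkTree_node ok163 ok164)) (checkTree_node ok165 (checkTree_node ok166 ok167))))) (checkTree_node (checkTree_node (checkTree_node (checkTree_node ok168 (checkTree_node ok169 ok170)) (checkTree_node ok171 (checkTree_node ok172 ok173))) (checkTree_node (checkTree_node ok174 (checkTree_node ok175 ok176)) (checkTree_node ok177 (checkTree_node ok178 ok179)))) (checkTree_node (checkTree_node (checkTree_node ok180 (checkTree_node ok181 ok182)) (checkTree_node ok183 (checkTree_node ok184 ok185))) (checkTree_node (checkTree_node ok186 (checkTree_node ok187 ok188)) (checkTree_node ok189 (checkTree_node ok190 ok191))))))))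

theorem maker_wins : MakerHasWinningStrategy :=
  strategy_of_tree top_ok 9550 231 (by decide +kernel)

end Vale.Agent.P062
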