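import Vale.Agent.P062.Data00
import Vale.Agent.P062.Data01
import Vale.Agent.P062.Data02
import Vale.Agent.P062.Data03
import Vale.Agent.P062.Data04
import Vale.Agent.P062.Data05
import Vale.Agent.P062.Data06
import Vale.Agent.P062.Data07
import Vale.Agent.P062.Data08
import Vale.Agent.P062.Data09

namespace Vale.Agent.P062

def top : Tree := (.node 4800 (.node 2400 (.node 1200 (.node 600 (.node 300 (.node 150 (.node 50 c0
(.node 100 c1
c2))
(.node 200 c3
(.node 250 c4
c5)))
(.node 450 (.node 350 c6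
(.node 400 c7
c8))
(.node 500 c9
(.node 550 c10
c11))))
(.node 900 (.node 750 (.node 650 c12
(.node 700 c13
c14))
(.node 800 c15
(.node 850 c16
c17)))
(.node 1050 (.node 950 c18
(.node 1000 c19
c20))
(.node 1100 c21
(.node 1150 c22
c23)))))
(.node 1800 (.node 1500 (.node 1350 (.node 1250 c24
(.node 1300 c25
c26))
(.node 1400 c27
(.node 1450 c28
c29)))
(.node 1650 (.node 1550 c30
(.node 1600 c31
c32))
(.node 1700 c33
(.node 1750 c34
c35))))
(.node 2100 (.node 1950 (.node 1850 c36
(.node 1900 c37
c38))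
(.node 2000 c39
(.node 2050 c40
c41)))
(.node 2250 (.node 2150 c42
(.node 2200 c43
c44))
(.node 2300 c45
(.node 2350 c46
c47))))))
(.node 3600 (.node 3000 (.node 2700 (.node 2550 (.node 2450 c48
(.node 2500 c49
c50))
(.node 2600 c51
(.node 2650 c52
c53)))
(.node 2850 (.node 2750 c54
(.node 2800 c55
c56))
(.node 2900 c57
(.node 2950 c58
c59))))
(.node 3300 (.node 3150 (.node 3050 c60
(.node 3100 c61
c62))
(.node 3200 c63
(.node 3250 c64
c65)))
(.node 3450 (.node 3350 c66
(.node 3400 c67
c68))
(.node 3500 c69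
(.node 3550 c70
c71)))))
(.node 4200 (.node 3900 (.node 3750 (.node 3650 c72
(.node 3700 c73
c74))
(.node 3800 c75
(.node 3850 c76
c77)))
(.node 4050 (.node 3950 c78
(.node 4000 c79
c80))
(.node 4100 c81
(.node 4150 c82
c83))))
(.node 4500 (.node 4350 (.node 4250 c84
(.node 4300 c85
c86))
(.node 4400 c87
(.node 4450 c88
c89)))
(.node 4650 (.node 4550 c90
(.node 4600 c91
c92))
(.node 4700 c93
(.node 4750 c94
c95)))))))
(.node 7200 (.node 6000 (.node 5400 (.node 5100 (.node 4950 (.node 4850 c96
(.node 4900 c97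
c98))
(.node 5000 c99
(.node 5050 c100
c101)))
(.node 5250 (.node 5150 c102
(.node 5200 c103
c104))
(.node 5300 c105
(.node 5350 c106
c107))))
(.node 5700 (.node 5550 (.node 5450 c108
(.node 5500 c109
c110))
(.node 5600 c111
(.node 5650 c112
c113)))
(.node 5850 (.node 5750 c114
(.node 5800 c115
c116))
(.node 5900 c117
(.node 5950 c118
c119)))))
(.node 6600 (.node 6300 (.node 6150 (.node 6050 c120
(.node 6100 c121
c122))
(.node 6200 c123
(.node 6250 c124
c125)))
(.node 6450 (.node 6350 c126
(.node 6400 c127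
c128))
(.node 6500 c129
(.node 6550 c130
c131))))
(.node 6900 (.node 6750 (.node 6650 c132
(.node 6700 c133
c134))
(.node 6800 c135
(.node 6850 c136
c137)))
(.node 7050 (.node 6950 c138
(.node 7000 c139
c140))
(.node 7100 c141
(.node 7150 c142
c143))))))
(.node 8400 (.node 7800 (.node 7500 (.node 7350 (.node 7250 c144
(.node 7300 c145
c146))
(.node 7400 c147
(.node 7450 c148
c149)))
(.node 7650 (.node 7550 c150
(.node 7600 c151
c152))
(.node 7700 c153
(.node 7750 c154
c155))))
(.node 8100 (.node 7950 (.node 7850 c156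
(.node 7900 c157
c158))
(.node 8000 c159
(.node 8050 c160
c161)))
(.node 8250 (.node 8150 c162
(.node 8200 c163
c164))
(.node 8300 c165
(.node 8350 c166
c167)))))
(.node 9000 (.node 8700 (.node 8550 (.node 8450 c168
(.node 8500 c169
c170))
(.node 8600 c171
(.node 8650 c172
c173)))
(.node 8850 (.node 8750 c174
(.node 8800 c175
c176))
(.node 8900 c177
(.node 8950 c178
c179))))
(.node 9300 (.node 9150 (.node 9050 c180
(.node 9100 c181
c182))
(.node 9200 c183
(.node 9250 c184
c185)))
(.node 9450 (.node 9350 c186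
(.node 9400 c187
c188))
(.node 9500 c189
(.node 9550 c190
c191))))))))

end Vale.Agent.P062
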